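import Vale.Agent.P065.UB.WLov

/-!
# P065, upper bound: slow touched points carry few edges (helper374)

`Slow P k Q I s` = the touched points with fewer than `s` partners in `T = Tch P k Q I` (pairs of
`T` with slope in `I`).  A line through a slow point, of slope the first slope of the window, is
crossed by at most `3 s + 4 V + 6` edges (`V = #EdBd P k Q I`), not only by `#T + V`.  Hence the
edges with a slow end are at most `C (s + V + 1) ^ (4/3)` in number: no `#T` in the bound.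
-/

set_option autoImplicit false

namespace Vale.Agent.P065.UB.H374

open Finset RankAux

open Classical in
/-- the touched points with fewer than `s` touched partners -/
noncomputable def Slow (P : Finset Pt) (k : ℕ) (Q : Finset Pt) (I : Set ℝ) (s : ℕ) : Finset Pt :=
  {x ∈ Tch P k Q I | #(Par (Tch P k Q I) I x) < s}

variable {P Q : Finset Pt} {k : ℕ} {I : Set ℝ}

theorem mem_Slow {s : ℕ} {x : Pt} :
    x ∈ Slow P k Q I s ↔ x ∈ Tch P k Q I ∧ #(Par (Tch P k Q I) I x) < s := by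
  classical
  unfold Slow
  simp only [Finset.mem_filter]

/-- the rank of a slow point is always near the cursor -/
theorem slow_rank (hP : Good P) (hQ : Q ⊆ P) (hI : I.OrdConnected) {s : ℕ} {x : Pt}
    (hx : x ∈ Slow P k Q I s) {t : ℝ} (ht' : t ∈ I) {e : Pt × Pt} (he : e ∈ EdIn P k Q I) :
    #(Bel (Tch P k Q I) t x) ≤ cT (Tch P k Q I) e + #(EdBd P k Q I) + s ∧
    cT (Tch P k Q I) e ≤ #(Bel (Tch P k Q I) t x) + #(EdBd P k Q I) + s := by
  classical
  have hTP : Tch P k Q I ⊆ P := (Tch_subset P k Q I).trans hQ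
  obtain ⟨hxT, hxs⟩ := mem_Slow.1 hx
  obtain ⟨_, ⟨p, q⟩, hf, hpq⟩ := mem_Tch.1 hxT
  have h1 := mem_EdIn.1 hf
  have hlt := (mem_Ed.1 h1.1).2.2.1
  have hh : ht (sl p q) x = ht (sl p q) p := by
    rcases hpq with h | h
    · simp only at h; rw [h]
    · simp only at h; rw [← h]; exact ((ht_eq_iff hlt _).2 rfl).symm
  have hB : #(Bel (Tch P k Q I) (sl p q) x) = cT (Tch P k Q I) (p, q) := by
    unfold Bel cT
    rw [hh]
  have s1 := shift hP hTP hI ht' h1.2.2.2 hxT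
  have s2 := shift hP hTP hI h1.2.2.2 ht' hxT
  have w1 := window hP hQ hI hf he
  have w2 := window hP hQ hI he hf
  rw [hB] at s1 s2
  constructor <;> omega

/-- two points which change their order have a slope in the window -/
theorem mem_Par_of {T : Finset Pt} (hP : Good P) (hT : T ⊆ P) (hI : I.OrdConnected) {m m' : ℝ}
    (hm : m ∈ I) (hm' : m' ∈ I) {u v : Pt} (hu : u ∈ T) (hv : v ∈ T) (h1 : ht m u < ht m v)
    (h2 : ht m' v ≤ ht m' u) : u ∈ Par T I v := by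
  classical
  unfold Par
  rw [Finset.mem_filter]
  refine ⟨hu, ?_⟩
  have hne : u ≠ v := fun h' => by rw [h'] at h1; exact lt_irrefl _ h1
  rcases lt_trichotomy u.1 v.1 with hx | hx | hx
  · left
    have h3 : m < sl u v := (ht_lt_iff hx m).1 h1
    have h4 : sl u v ≤ m' := by
      by_contra h3
      exact absurd h2 (not_le.2 ((ht_lt_iff hx m').2 (not_le.1 h3)))
    exact mem_Sw.2 ⟨hu, hv, hx, hI.out hm hm' ⟨h3.le, h4⟩⟩
  · exact absurd (hP.xinj u (hT hu) v (hT hv) hx) hne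
  · right
    have h3 : sl v u < m := (lt_ht_iff hx m).1 h1
    have h4 : m' ≤ sl v u := by
      by_contra h3
      exact absurd h2 (not_le.2 ((lt_ht_iff hx m').2 (not_le.1 h3)))
    exact mem_Sw.2 ⟨hv, hu, hx, hI.out hm' hm ⟨h4, h3.le⟩⟩

/-- at most two points of `T` have a given height -/
theorem card_height_le {T : Finset Pt} (hP : Good P) (hT : T ⊆ P) (m : ℝ) (a : Pt) :
    #{v ∈ T | ht m v = ht m a} ≤ 2 := by
  classical
  refine le_trans (Finset.card_le_card ?_) (card_rank_le hP hT m #(Bel T m a))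
  intro v hv
  obtain ⟨h1, h2⟩ := Finset.mem_filter.1 hv
  refine Finset.mem_filter.2 ⟨h1, ?_⟩
  unfold Bel
  rw [h2]

/-- heights at the first time of the window increase along the edges -/
theorem ht_mono_edge {α : ℝ} {p q : Pt} (hx : p.1 < q.1) (h : α ≤ sl p q) :
    ht α p ≤ ht α q := by
  rcases h.lt_or_eq with h | h
  · exact ((ht_lt_iff hx α).2 h).le
  · exact ((ht_eq_iff hx α).2 h).le

open Classical in
/-- **a line through a slow point is crossed by few edges** -/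
theorem cross_slow (hP : Good P) (hQ : Q ⊆ P) (hI : I.OrdConnected) {s : ℕ} {a : Pt}
    (ha : a ∈ Slow P k Q I s) {e₀ e₁ : Pt × Pt} (he₀ : e₀ ∈ EdIn P k Q I)
    (he₁ : e₁ ∈ EdIn P k Q I)
    (hmin : ∀ e ∈ EdIn P k Q I, sl e₀.1 e₀.2 ≤ sl e.1 e.2)
    (hmax : ∀ e ∈ EdIn P k Q I, sl e.1 e.2 ≤ sl e₁.1 e₁.2)
    (H : Set Pt)
    (hdown : ∀ u v : Pt, v ∈ H → ht (sl e₀.1 e₀.2) u ≤ ht (sl e₀.1 e₀.2) v → u ∈ H)
    (hHa : ∀ v : Pt, ht (sl e₀.1 e₀.2) v < ht (sl e₀.1 e₀.2) a → v ∈ H)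
    (hHa' : ∀ v ∈ H, ht (sl e₀.1 e₀.2) v ≤ ht (sl e₀.1 e₀.2) a) :
    #{e ∈ EdIn P k Q I | e.1 ∈ H ∧ e.2 ∉ H} ≤ 3 * s + 4 * #(EdBd P k Q I) + 7 := by
  obtain ⟨p₀, q₀⟩ := e₀
  obtain ⟨p₁, q₁⟩ := e₁
  simp only at hmin hmax hdown hHa hHa'
  set α := sl p₀ q₀ with hα
  set β := sl p₁ q₁ with hβ
  set T := Tch P k Q I with hTdef
  have hTP : T ⊆ P := (Tch_subset P k Q I).trans hQ
  have i₀ := mem_EdIn.1 he₀
  have i₁ := mem_EdIn.1 he₁
  obtain ⟨haT, has⟩ := mem_Slow.1 ha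
  set F : Finset (Pt × Pt) := {e ∈ EdIn P k Q I | e.1 ∈ H ∧ e.2 ∉ H} with hF
  rcases (hmin _ he₁ : α ≤ β).lt_or_eq with hlt | heq
  · obtain ⟨X, hX⟩ : ∃ X : Set Pt, ∀ v, v ∈ X ↔ v ∈ T ∧ v ∈ H :=
      ⟨{v | v ∈ T ∧ v ∈ H}, fun _ => Iff.rfl⟩
    obtain ⟨l1, _, l3, _⟩ := low_of_edge hP i₀.1
    obtain ⟨_, l2, _, l4⟩ := low_of_edge hP i₁.1
    have key : #{v ∈ insert p₁ ({v ∈ P | ht β v < ht β p₁} : Finset Pt) | v ∈ X} +
        #(OutE P k X α β) =
        #{v ∈ insert q₀ ({v ∈ P | ht α v < ht α p₀} : Finset Pt) | v ∈ X} + #(InE P k X α β) :=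
      flow hP X l2 l4 _ α _ (Nat.lt_succ_self _) hlt l1 l3
    have hp₁T : p₁ ∈ T := mem_Tch.2 ⟨i₁.2.1, (p₁, q₁), he₁, Or.inl rfl⟩
    -- the start
    have s1 : #{v ∈ insert q₀ ({v ∈ P | ht α v < ht α p₀} : Finset Pt) | v ∈ X} ≤
        #(Bel T α a) + 2 := by
      refine le_trans (Finset.card_le_card (t := Bel T α a ∪ {v ∈ T | ht α v = ht α a}) ?_)
        ((Finset.card_union_le _ _).trans (Nat.add_le_add_left (card_height_le hP hTP α a) _))
      intro v hv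
      obtain ⟨h1, h2⟩ := (hX v).1 (Finset.mem_filter.1 hv).2
      rw [Finset.mem_union]
      rcases (hHa' v h2).lt_or_eq with h3 | h3
      · exact Or.inl (mem_Bel.2 ⟨h1, h3⟩)
      · exact Or.inr (Finset.mem_filter.2 ⟨h1, h3⟩)
    -- the end
    set M : Finset Pt := {v ∈ T | ht β a ≤ ht β v ∧ ht β v ≤ ht β p₁} with hM
    have s2 : cT T (p₁, q₁) + 1 ≤
        #{v ∈ insert p₁ ({v ∈ P | ht β v < ht β p₁} : Finset Pt) | v ∈ X} + #(Par T I a) +
          #M := by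
      rw [← insert_inter_cT hTP hp₁T (lt_irrefl _)]
      refine le_trans (Finset.card_le_card (t := ({v ∈ insert p₁
        ({v ∈ P | ht β v < ht β p₁} : Finset Pt) | v ∈ X} ∪ Par T I a) ∪ M) ?_)
        ((Finset.card_union_le _ _).trans (Nat.add_le_add_right (Finset.card_union_le _ _) _))
      intro v hv
      obtain ⟨h1, h2⟩ := Finset.mem_inter.1 hv
      rw [Finset.mem_union, Finset.mem_union]
      by_cases hvH : v ∈ H
      · exact Or.inl (Or.inl (Finset.mem_filter.2 ⟨h1, (hX v).2 ⟨h2, hvH⟩⟩))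
      · have h3 : ht α a ≤ ht α v := by
          by_contra h4
          exact hvH (hHa v (not_le.1 h4))
        rcases lt_or_ge (ht β v) (ht β a) with h4 | h4
        · exact Or.inl (Or.inr (mem_Par_of hP hTP hI i₁.2.2.2 i₀.2.2.2 h2 haT h4 h3))
        · right
          refine Finset.mem_filter.2 ⟨h2, h4, ?_⟩
          rcases Finset.mem_insert.1 h1 with h5 | h5
          · rw [h5]
          · exact (Finset.mem_filter.1 h5).2.le
    have s3 : #M ≤ #(EdBd P k Q I) + s + 2 := by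
      rcases M.eq_empty_or_nonempty with hE | ⟨m, hm⟩
      · rw [hE]; simp
      have hap : ht β a ≤ ht β p₁ := ((Finset.mem_filter.1 hm).2.1).trans
        (Finset.mem_filter.1 hm).2.2
      have h1 : #M + #(Bel T β a) ≤ cT T (p₁, q₁) + 2 := by
        rw [← Finset.card_union_of_disjoint]
        · refine le_trans (Finset.card_le_card (t := Bel T β p₁ ∪ {v ∈ T | ht β v = ht β p₁}) ?_)
            ((Finset.card_union_le _ _).trans ?_)
          · intro v hv
            rw [Finset.mem_union] at hv ⊢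
            rcases hv with hv | hv
            · obtain ⟨h1, h2⟩ := Finset.mem_filter.1 hv
              rcases h2.2.lt_or_eq with h3 | h3
              · exact Or.inl (mem_Bel.2 ⟨h1, h3⟩)
              · exact Or.inr (Finset.mem_filter.2 ⟨h1, h3⟩)
            · obtain ⟨h1, h2⟩ := mem_Bel.1 hv
              exact Or.inl (mem_Bel.2 ⟨h1, h2.trans_le hap⟩)
          · exact Nat.add_le_add (le_of_eq rfl) (card_height_le hP hTP β p₁)
        · rw [Finset.disjoint_left]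
          intro v hv hv'
          exact absurd (mem_Bel.1 hv').2 (not_lt.2 (Finset.mem_filter.1 hv).2.1)
      have h2 := (slow_rank hP hQ hI ha i₁.2.2.2 he₁).2
      have h3 : cT T (p₁, q₁) ≤ #(Bel T β a) + #(EdBd P k Q I) + s := h2
      omega
    -- the crossing edges
    have s4 : #F ≤ #(OutE P k X α β) + 2 := by
      have hsub : F ⊆ OutE P k X α β ∪ {(p₀, q₀), (p₁, q₁)} := by
        rintro ⟨p, q⟩ he
        have c := Finset.mem_filter.1 he
        have i := mem_EdIn.1 c.1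
        rw [Finset.mem_union, Finset.mem_insert, Finset.mem_singleton]
        rcases (hmin _ c.1 : α ≤ sl p q).lt_or_eq with h3 | h3
        · rcases (hmax _ c.1 : sl p q ≤ β).lt_or_eq with h4 | h4
          · left
            unfold OutE
            refine Finset.mem_filter.2 ⟨i.1, ⟨?_, ?_⟩, h3, h4⟩
            · exact (hX _).2 ⟨mem_Tch.2 ⟨i.2.1, (p, q), c.1, Or.inl rfl⟩, c.2.1⟩
            · intro h5
              exact c.2.2 ((hX _).1 h5).2
          · right; right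
            obtain ⟨h5, h6⟩ := Ed_unique hP i.1 i₁.1 h4
            rw [h5, h6]
        · right; left
          obtain ⟨h5, h6⟩ := Ed_unique hP i₀.1 i.1 h3
          rw [h5, h6]
      refine (Finset.card_le_card hsub).trans ((Finset.card_union_le _ _).trans ?_)
      exact Nat.add_le_add_left Finset.card_le_two _
    -- the entering edges
    have s5 : #(InE P k X α β) ≤ #(EdBd P k Q I) := by
      apply Finset.card_le_card
      rintro ⟨p, q⟩ he
      unfold InE at he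
      obtain ⟨he, ⟨hp, hq⟩, h3, h4⟩ := Finset.mem_filter.1 he
      have hsI : sl p q ∈ I := hI.out i₀.2.2.2 i₁.2.2.2 ⟨h3.le, h4.le⟩
      obtain ⟨hqT, hqU⟩ := (hX _).1 hq
      have hqQ := (mem_Tch.1 hqT).1
      unfold EdBd
      refine Finset.mem_filter.2 ⟨he, Or.inr ⟨fun hpQ => hp ((hX _).2 ?_), hqQ⟩, hsI⟩
      have hin : (p, q) ∈ EdIn P k Q I := mem_EdIn.2 ⟨he, hpQ, hqQ, hsI⟩
      refine ⟨mem_Tch.2 ⟨hpQ, (p, q), hin, Or.inl rfl⟩, hdown p q hqU ?_⟩
      exact ht_mono_edge (mem_Ed.1 he).2.2.1 h3.le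
    have r0 : #(Bel T α a) ≤ cT T (p₁, q₁) + #(EdBd P k Q I) + s :=
      (slow_rank hP hQ hI ha i₀.2.2.2 he₁).1
    have has' : #(Par T I a) < s := has
    omega
  · have s3 : #F ≤ 1 := by
      rw [Finset.card_le_one]
      rintro ⟨p, q⟩ he ⟨p', q'⟩ he'
      have c := (Finset.mem_filter.1 he).1
      have c' := (Finset.mem_filter.1 he').1
      have e1 : sl p q = sl p' q' := by
        have a1 : α ≤ sl p q := hmin _ c
        have a2 : sl p q ≤ β := hmax _ c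
        have a3 : α ≤ sl p' q' := hmin _ c'
        have a4 : sl p' q' ≤ β := hmax _ c'
        linarith
      obtain ⟨h5, h6⟩ := Ed_unique hP (mem_EdIn.1 c).1 (mem_EdIn.1 c').1 e1
      rw [h5, h6]
    omega

/-- there are few slow points -/
theorem card_slow (hP : Good P) (hQ : Q ⊆ P) (hI : I.OrdConnected) (s : ℕ) :
    #(Slow P k Q I s) ≤ 4 * s + 4 * #(EdBd P k Q I) + 2 := by
  classical
  rcases (Slow P k Q I s).eq_empty_or_nonempty with hE | ⟨x, hx⟩
  · rw [hE]; simp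
  obtain ⟨_, e, he, _⟩ := mem_Tch.1 (mem_Slow.1 hx).1
  have hTP : Tch P k Q I ⊆ P := (Tch_subset P k Q I).trans hQ
  set T := Tch P k Q I with hT
  set t := sl e.1 e.2 with ht'
  have htI : t ∈ I := by
    obtain ⟨p, q⟩ := e
    exact (mem_EdIn.1 he).2.2.2
  set c := cT T e with hc
  set V := #(EdBd P k Q I) with hV
  have h1 : #(Slow P k Q I s) ≤ 2 * #((Slow P k Q I s).image fun v => #(Bel T t v)) := by
    apply Finset.card_le_mul_card_image
    intro j _
    refine le_trans (Finset.card_le_card ?_) (card_rank_le hP hTP t j)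
    intro v hv
    rw [Finset.mem_filter] at hv ⊢
    exact ⟨(mem_Slow.1 hv.1).1, hv.2⟩
  have h2 : ((Slow P k Q I s).image fun v => #(Bel T t v)) ⊆
      Finset.Icc (c - (V + s)) (c + (V + s)) := by
    intro j hj
    obtain ⟨v, hv, rfl⟩ := Finset.mem_image.1 hj
    have h3 := slow_rank hP hQ hI hv htI he
    rw [Finset.mem_Icc]
    have h4 : #(Bel T t v) ≤ c + V + s := h3.1
    have h5 : c ≤ #(Bel T t v) + V + s := h3.2
    omega
  have h3 := Finset.card_le_card h2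
  rw [Nat.card_Icc] at h3
  omega

open Classical in
/-- the edges inside `Q` with a slow end -/
noncomputable def EdSlow (P : Finset Pt) (k : ℕ) (Q : Finset Pt) (I : Set ℝ) (s : ℕ) :
    Finset (Pt × Pt) :=
  {e ∈ EdIn P k Q I | e.1 ∈ Slow P k Q I s ∨ e.2 ∈ Slow P k Q I s}

/-- **the strip of the slow points**: few points, few boundary edges. -/
theorem exists_strip (hP : Good P) (hQ : Q ⊆ P) (hI : I.OrdConnected) (s : ℕ) :
    ∃ B ⊆ Q, #B ≤ 2 * s + 2 * #(EdBd P k Q I) + 2 ∧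
      #(EdBd P k B I) ≤ 6 * s + 9 * #(EdBd P k Q I) + 14 ∧
      #(EdSlow P k Q I s) ≤ #(EdIn P k B I) + #(EdBd P k B I) := by
  classical
  set V := #(EdBd P k Q I) with hV
  rcases (Slow P k Q I s).eq_empty_or_nonempty with hE | hne
  · have h0 : EdSlow P k Q I s = ∅ := by
      unfold EdSlow
      rw [hE]
      simp
    refine ⟨∅, Finset.empty_subset _, by simp, ?_, by rw [h0]; simp⟩
    have h1 : EdBd P k ∅ I = ∅ := by
      unfold EdBd
      simp
    rw [h1]; simp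
  -- the first and the last edge
  obtain ⟨x, hx⟩ := hne
  obtain ⟨_, e, he, _⟩ := mem_Tch.1 (mem_Slow.1 hx).1
  obtain ⟨e₀, he₀, hmin⟩ := (EdIn P k Q I).exists_min_image (fun e => sl e.1 e.2) ⟨e, he⟩
  obtain ⟨e₁, he₁, hmax⟩ := (EdIn P k Q I).exists_max_image (fun e => sl e.1 e.2) ⟨e, he⟩
  set T := Tch P k Q I with hTdef
  have hTP : T ⊆ P := (Tch_subset P k Q I).trans hQ
  set α := sl e₀.1 e₀.2 with hα
  have hαI : α ∈ I := by
    obtain ⟨p, q⟩ := e₀
    exact (mem_EdIn.1 he₀).2.2.2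
  obtain ⟨a₁, ha₁, hamin⟩ := (Slow P k Q I s).exists_min_image (fun v => ht α v) ⟨x, hx⟩
  obtain ⟨a₂, ha₂, hamax⟩ := (Slow P k Q I s).exists_max_image (fun v => ht α v) ⟨x, hx⟩
  obtain ⟨H₁, hH₁⟩ : ∃ H : Set Pt, ∀ v, v ∈ H ↔ ht α v < ht α a₁ :=
    ⟨{v | ht α v < ht α a₁}, fun _ => Iff.rfl⟩
  obtain ⟨H₂, hH₂⟩ : ∃ H : Set Pt, ∀ v, v ∈ H ↔ ht α v ≤ ht α a₂ :=
    ⟨{v | ht α v ≤ ht α a₂}, fun _ => Iff.rfl⟩
  have c₁ := cross_slow hP hQ hI ha₁ he₀ he₁ hmin hmax H₁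
    (fun u v hv huv => (hH₁ u).2 (lt_of_le_of_lt huv ((hH₁ v).1 hv)))
    (fun v hv => (hH₁ v).2 hv) (fun v hv => ((hH₁ v).1 hv).le)
  have c₂ := cross_slow hP hQ hI ha₂ he₀ he₁ hmin hmax H₂
    (fun u v hv huv => (hH₂ u).2 (le_trans huv ((hH₂ v).1 hv)))
    (fun v hv => (hH₂ v).2 (le_of_lt hv)) (fun v hv => (hH₂ v).1 hv)
  have hup : ∀ p q : Pt, (p, q) ∈ EdIn P k Q I → ht α p ≤ ht α q := fun p q h =>
    ht_mono_edge (mem_Ed.1 (mem_EdIn.1 h).1).2.2.1 (hmin _ h)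
  -- the strip
  set B : Finset Pt := {v ∈ T | ht α a₁ ≤ ht α v ∧ ht α v ≤ ht α a₂} with hB
  have hBQ : B ⊆ Q := (Finset.filter_subset _ _).trans (Tch_subset P k Q I)
  have memB : ∀ v, v ∈ B ↔ v ∈ T ∧ v ∉ H₁ ∧ v ∈ H₂ := by
    intro v
    rw [hB, Finset.mem_filter, hH₁, hH₂, not_lt]
  have hBcard : #B ≤ 2 * s + 2 * V + 2 := by
    have h1 : #B + #(Bel T α a₁) ≤ #(Bel T α a₂) + 2 := by
      rw [← Finset.card_union_of_disjoint]
      · refine le_trans (Finset.card_le_card (t := Bel T α a₂ ∪ {v ∈ T | ht α v = ht α a₂}) ?_)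
          ((Finset.card_union_le _ _).trans
            (Nat.add_le_add_left (card_height_le hP hTP α a₂) _))
        intro v hv
        rw [Finset.mem_union] at hv ⊢
        rcases hv with hv | hv
        · obtain ⟨h1, h2⟩ := Finset.mem_filter.1 hv
          rcases h2.2.lt_or_eq with h3 | h3
          · exact Or.inl (mem_Bel.2 ⟨h1, h3⟩)
          · exact Or.inr (Finset.mem_filter.2 ⟨h1, h3⟩)
        · obtain ⟨h1, h2⟩ := mem_Bel.1 hv
          exact Or.inl (mem_Bel.2 ⟨h1, h2.trans_le (hamin _ ha₂)⟩)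
      · rw [Finset.disjoint_left]
        intro v hv hv'
        exact absurd (mem_Bel.1 hv').2 (not_lt.2 (Finset.mem_filter.1 hv).2.1)
    have h2 : cT T e₀ ≤ #(Bel T α a₁) + V + s := (slow_rank hP hQ hI ha₁ hαI he₀).2
    have h3 : #(Bel T α a₂) ≤ cT T e₀ + V + s := (slow_rank hP hQ hI ha₂ hαI he₀).1
    omega
  -- the boundary of the strip
  have hBbd : #(EdBd P k B I) ≤ 6 * s + 9 * V + 14 := by
    have hsub : EdBd P k B I ⊆ EdBd P k Q I ∪
        ({e ∈ EdIn P k Q I | e.1 ∈ H₁ ∧ e.2 ∉ H₁} ∪ {e ∈ EdIn P k Q I | e.1 ∈ H₂ ∧ e.2 ∉ H₂}) := by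
      rintro ⟨p, q⟩ hpq
      unfold EdBd at hpq
      obtain ⟨hE, h1, hs⟩ := Finset.mem_filter.1 hpq
      simp only at h1 hs
      rw [Finset.mem_union, Finset.mem_union]
      rcases h1 with ⟨hp, hq⟩ | ⟨hp, hq⟩
      · have hpB := (memB p).1 hp
        have hpQ := (mem_Tch.1 hpB.1).1
        by_cases hqQ : q ∈ Q
        · right; right
          have hin : (p, q) ∈ EdIn P k Q I := mem_EdIn.2 ⟨hE, hpQ, hqQ, hs⟩
          have hqT : q ∈ T := mem_Tch.2 ⟨hqQ, (p, q), hin, Or.inr rfl⟩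
          refine Finset.mem_filter.2 ⟨hin, hpB.2.2, fun hqH => hq ((memB q).2 ⟨hqT, ?_, hqH⟩)⟩
          intro h2
          apply hpB.2.1
          rw [hH₁] at h2 ⊢
          exact lt_of_le_of_lt (hup p q hin) h2
        · left
          unfold EdBd
          exact Finset.mem_filter.2 ⟨hE, Or.inl ⟨hpQ, hqQ⟩, hs⟩
      · have hqB := (memB q).1 hq
        have hqQ := (mem_Tch.1 hqB.1).1
        by_cases hpQ : p ∈ Q
        · right; left
          have hin : (p, q) ∈ EdIn P k Q I := mem_EdIn.2 ⟨hE, hpQ, hqQ, hs⟩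
          have hpT : p ∈ T := mem_Tch.2 ⟨hpQ, (p, q), hin, Or.inl rfl⟩
          refine Finset.mem_filter.2 ⟨hin, ?_, hqB.2.1⟩
          by_contra hpH
          refine hp ((memB p).2 ⟨hpT, hpH, ?_⟩)
          have h2 := hqB.2.2
          rw [hH₂] at h2 ⊢
          exact (hup p q hin).trans h2
        · left
          unfold EdBd
          exact Finset.mem_filter.2 ⟨hE, Or.inr ⟨hpQ, hqQ⟩, hs⟩
    have h1 := (Finset.card_le_card hsub).trans (Finset.card_union_le _ _)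
    have h2 := Finset.card_union_le {e ∈ EdIn P k Q I | e.1 ∈ H₁ ∧ e.2 ∉ H₁}
      {e ∈ EdIn P k Q I | e.1 ∈ H₂ ∧ e.2 ∉ H₂}
    omega
  -- the edges with a slow end
  have hsub : EdSlow P k Q I s ⊆ EdIn P k B I ∪ EdBd P k B I := by
    rintro ⟨p, q⟩ hpq
    unfold EdSlow at hpq
    obtain ⟨hin, h1⟩ := Finset.mem_filter.1 hpq
    simp only at h1
    have i := mem_EdIn.1 hin
    have hslow : ∀ v ∈ Slow P k Q I s, v ∈ B := fun v hv =>
      Finset.mem_filter.2 ⟨(mem_Slow.1 hv).1, hamin v hv, hamax v hv⟩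
    rw [Finset.mem_union]
    by_cases hp : p ∈ B <;> by_cases hq : q ∈ B
    · left; exact mem_EdIn.2 ⟨i.1, hp, hq, i.2.2.2⟩
    · right; unfold EdBd; exact Finset.mem_filter.2 ⟨i.1, Or.inl ⟨hp, hq⟩, i.2.2.2⟩
    · right; unfold EdBd; exact Finset.mem_filter.2 ⟨i.1, Or.inr ⟨hp, hq⟩, i.2.2.2⟩
    · exfalso
      rcases h1 with h1 | h1
      · exact hp (hslow _ h1)
      · exact hq (hslow _ h1)
  exact ⟨B, hBQ, hBcard, hBbd, (Finset.card_le_card hsub).trans (Finset.card_union_le _ _)⟩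

/-- **HEAVY**: the slow points carry at most `C (s + V + 1) ^ (4/3)` edges. -/
def StHeavy : Prop :=
  ∃ C : ℝ, 0 < C ∧ ∀ (P : Finset Pt) (k : ℕ) (Q : Finset Pt) (I : Set ℝ), Good P → Q ⊆ P →
    I.OrdConnected → ∀ s : ℕ,
    (#(EdSlow P k Q I s) : ℝ) ≤ C * ((s : ℝ) + #(EdBd P k Q I) + 1) ^ (4 / 3 : ℝ)

/-- the arithmetic -/
theorem arith {C t b e y : ℝ} (hC : 0 < C) (ht : 0 ≤ t) (hb : 0 ≤ b) (hy : 1 ≤ y)
    (h1 : t ≤ 2 * y) (h2 : b ≤ 14 * y) (h3 : e ≤ C * (t * (t + b)) ^ (2 / 3 : ℝ) + b) :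
    e ≤ (C * 60 ^ (2 / 3 : ℝ) + 30) * y ^ (4 / 3 : ℝ) := by
  have hy0 : 0 < y := by linarith
  have hprod : t * (t + b) ≤ 60 * y ^ 2 := by
    calc t * (t + b) ≤ (2 * y) * (2 * y + 14 * y) := by gcongr
      _ ≤ 60 * y ^ 2 := by nlinarith [sq_nonneg y]
  have hpow : (t * (t + b)) ^ (2 / 3 : ℝ) ≤ 60 ^ (2 / 3 : ℝ) * y ^ (4 / 3 : ℝ) := by
    calc (t * (t + b)) ^ (2 / 3 : ℝ) ≤ (60 * y ^ 2) ^ (2 / 3 : ℝ) := by
          apply Real.rpow_le_rpow _ hprod (by norm_num)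
          positivity
      _ = 60 ^ (2 / 3 : ℝ) * y ^ (4 / 3 : ℝ) := by
          rw [Real.mul_rpow (by norm_num) (by positivity), ← Real.rpow_natCast,
            ← Real.rpow_mul hy0.le]
          norm_num
  have hy43 : y ≤ y ^ (4 / 3 : ℝ) := by
    calc y = y ^ (1 : ℝ) := (Real.rpow_one y).symm
      _ ≤ y ^ (4 / 3 : ℝ) := Real.rpow_le_rpow_of_exponent_le hy (by norm_num)
  calc e ≤ C * (t * (t + b)) ^ (2 / 3 : ℝ) + b := h3
    _ ≤ C * (60 ^ (2 / 3 : ℝ) * y ^ (4 / 3 : ℝ)) + 30 * y ^ (4 / 3 : ℝ) := by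
        refine add_le_add (mul_le_mul_of_nonneg_left hpow hC.le) ?_
        linarith
    _ = (C * 60 ^ (2 / 3 : ℝ) + 30) * y ^ (4 / 3 : ℝ) := by ring

theorem stHeavy_of (hDey : StDey) : StHeavy := by
  obtain ⟨C, hC, dey⟩ := hDey
  refine ⟨C * 60 ^ (2 / 3 : ℝ) + 30, by positivity, ?_⟩
  intro P k Q I hP hQ hI s
  obtain ⟨B, hBQ, h1, h2, h3⟩ := exists_strip (k := k) hP hQ hI s
  have hd := dey P k B I hP (hBQ.trans hQ) hI
  have h4 : #(Tch P k B I) ≤ 2 * s + 2 * #(EdBd P k Q I) + 2 :=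
    (Finset.card_le_card (Tch_subset P k B I)).trans h1
  have n1 : (0 : ℝ) ≤ s := Nat.cast_nonneg _
  have n2 : (0 : ℝ) ≤ #(EdBd P k Q I) := Nat.cast_nonneg _
  have h4' : (#(Tch P k B I) : ℝ) ≤ ((2 * s + 2 * #(EdBd P k Q I) + 2 : ℕ) : ℝ) := by
    exact_mod_cast h4
  have h2' : (#(EdBd P k B I) : ℝ) ≤ ((6 * s + 9 * #(EdBd P k Q I) + 14 : ℕ) : ℝ) := by
    exact_mod_cast h2
  have h3' : (#(EdSlow P k Q I s) : ℝ) ≤ #(EdIn P k B I) + #(EdBd P k B I) := by
    exact_mod_cast h3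
  push_cast at h4' h2'
  refine arith (t := #(Tch P k B I)) (b := #(EdBd P k B I)) hC (Nat.cast_nonneg _)
    (Nat.cast_nonneg _) (by linarith) (by linarith) (by linarith) ?_
  exact h3'.trans (by linarith)

end Vale.Agent.P065.UB.H374
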