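import Vale.Agent.P065.UB.Out1

/-!
# P065, upper bound, front end: the windows with a common heaviness threshold `s0` (helper374)

Same construction as in `UB/Win.lean` (helper266), with shorter windows, so that the number of
boundary edges of a window is much smaller than `#EdIn ^ (3 / 4)`.
-/

set_option autoImplicit false

namespace Vale.Agent.P065.UB.H374

open Finset Vale.Agent.P065.UB.Win266

/-- the comparison of the bounds for a small window -/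
theorem no_small2 {C K a κ e : ℝ} (hC : 1 ≤ C) (hK : 2 ≤ K)
    (hκ : 603 * C ^ 2 * K ^ 2 ≤ κ) (hap : 0 < a)
    (h3 : e * κ ^ 4 ≤ 43 * C * a)
    (h4 : a ≤ 14 * C * K ^ 2 * κ ^ 3 * e) : False := by
  have hκ0 : 0 < κ := lt_of_lt_of_le (by positivity) hκ
  have he : 0 < e := by
    by_contra hh
    push Not at hh
    have h6 : 0 ≤ 14 * C * K ^ 2 * κ ^ 3 := by positivity
    have : 14 * C * K ^ 2 * κ ^ 3 * e ≤ 0 := mul_nonpos_of_nonneg_of_nonpos h6 hh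
    linarith
  have h5 : e * κ ^ 4 ≤ 43 * C * (14 * C * K ^ 2 * κ ^ 3 * e) :=
    h3.trans (mul_le_mul_of_nonneg_left h4 (by positivity))
  have h6 : κ * (e * κ ^ 3) ≤ (602 * C ^ 2 * K ^ 2) * (e * κ ^ 3) := by
    calc κ * (e * κ ^ 3) = e * κ ^ 4 := by ring
      _ ≤ _ := h5
      _ = _ := by ring
  have h7 : κ ≤ 602 * C ^ 2 * K ^ 2 := le_of_mul_le_mul_right h6 (by positivity)
  have : 0 < C ^ 2 * K ^ 2 := by positivity
  linarith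

/-- the pure counting part of the windows. -/
theorem pick_windows2 {C K lam a : ℝ} (hC : 1 ≤ C) (hK : 2 ≤ K) (hl : 1 ≤ lam) (ha : 0 < a)
    {κ : ℝ} (hκ : 603 * C ^ 2 * K ^ 2 ≤ κ) (R : Finset ℕ) (Vj Ej wj Sj : ℕ → ℕ) (v0 : ℕ)
    (hv1 : 1 ≤ v0) (hv0 : (v0 : ℝ) ≤ a / κ ^ 3)
    (hV : ∀ j ∈ R, Vj j ≤ v0) (hE : ∀ j ∈ R, (Ej j : ℝ) ≤ a ^ (4 / 3 : ℝ))
    (dey : ∀ j ∈ R, (Ej j : ℝ) ≤ C * ((wj j : ℝ) * (wj j + Vj j)) ^ (2 / 3 : ℝ))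
    (rank : ∀ j ∈ R, 8 * (Vj j + 1) ≤ wj j → wj j ^ 2 ≤ 64 * Sj j)
    (hS : ((∑ j ∈ R, Sj j : ℕ) : ℝ) ≤ (lam * a) ^ 2)
    (hR : (#R : ℝ) ≤ 7 * C * K * κ ^ 3 * lam ^ 2)
    (hsum : lam ^ 2 * a ^ (4 / 3 : ℝ) ≤ K * ((∑ j ∈ R, Ej j : ℕ) : ℝ)) :
    ∃ G ⊆ R, lam ^ 2 ≤ 4 * K * (#G : ℝ) ∧ ∀ j ∈ G, 8 * (Vj j + 1) ≤ wj j ∧
      wj j ^ 2 ≤ 64 * Sj j ∧ (wj j : ℝ) ≤ 16 * K * a ∧ a ≤ 28 * C ^ 2 * K ^ 2 * κ ^ 3 * wj j ∧
      (wj j : ℝ) ^ (4 / 3 : ℝ) ≤ 3584 * C * K ^ 4 * κ ^ 3 * Ej j ∧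
      a ^ (4 / 3 : ℝ) ≤ 14 * C * K ^ 2 * κ ^ 3 * Ej j := by
  classical
  have hκ0 : 0 < κ := lt_of_lt_of_le (by positivity) hκ
  have hCK : 1 ≤ C ^ 2 * K ^ 2 :=
    one_le_mul_of_one_le_of_one_le (one_le_pow₀ hC) (one_le_pow₀ (by linarith))
  have hκ1 : 1 ≤ κ := by
    linarith
  have hap : 0 < a ^ (4 / 3 : ℝ) := Real.rpow_pos_of_pos ha _
  set E : ℝ := ((∑ j ∈ R, Ej j : ℕ) : ℝ) with hEdef
  have hEpos : 0 < E := by
    by_contra hc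
    push Not at hc
    have : 0 < lam ^ 2 * a ^ (4 / 3 : ℝ) := by positivity
    nlinarith
  have hEsum : E = ∑ j ∈ R, (Ej j : ℝ) := by rw [hEdef]; push_cast; rfl
  have hRne : R.Nonempty := by
    rw [nonempty_iff_ne_empty]
    rintro rfl
    simp [hEsum] at hEpos
  set G1 : Finset ℕ := {j ∈ R | (∑ j ∈ R, (Ej j : ℝ)) ≤ 2 * #R * (Ej j : ℝ)} with hG1
  have hhalf : E / 2 ≤ ∑ j ∈ G1, (Ej j : ℝ) := by
    rw [hEsum]
    exact rich_half R Ej hRne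
  have hG1card : lam ^ 2 ≤ 2 * K * #G1 := by
    have h1 : ∑ j ∈ G1, (Ej j : ℝ) ≤ #G1 * a ^ (4 / 3 : ℝ) := by
      rw [← nsmul_eq_mul, ← sum_const]
      exact sum_le_sum fun j hj => hE j (mem_filter.1 hj).1
    have h2 : lam ^ 2 * a ^ (4 / 3 : ℝ) ≤ (2 * K * #G1) * a ^ (4 / 3 : ℝ) := by
      nlinarith
    exact le_of_mul_le_mul_right h2 hap
  -- the least number of edges
  have hmin : ∀ j ∈ G1, a ^ (4 / 3 : ℝ) ≤ 14 * C * K ^ 2 * κ ^ 3 * Ej j := by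
    intro j hj
    have h1 : E ≤ 2 * #R * (Ej j : ℝ) := by
      rw [hEsum]
      exact (mem_filter.1 hj).2
    have h2 : lam ^ 2 * a ^ (4 / 3 : ℝ) ≤ K * (2 * (7 * C * K * κ ^ 3 * lam ^ 2) * Ej j) := by
      refine hsum.trans (mul_le_mul_of_nonneg_left (h1.trans ?_) (by linarith))
      gcongr
    have h3 : a ^ (4 / 3 : ℝ) * lam ^ 2 ≤ (14 * C * K ^ 2 * κ ^ 3 * Ej j) * lam ^ 2 := by
      linarith
    exact le_of_mul_le_mul_right h3 (by positivity)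
  -- boundary
  have hbd : ∀ j ∈ G1, 8 * (Vj j + 1) ≤ wj j := by
    intro j hj
    by_contra hc
    push Not at hc
    have hjR := (mem_filter.1 hj).1
    have h1 := arith_small (C := C) (a := a) (κ := κ) hC ha hκ0 hv1 hv0 (hV j hjR) hc
    have h2 := dey j hjR
    have h3 : (Ej j : ℝ) * κ ^ 4 ≤ 43 * C * a ^ (4 / 3 : ℝ) :=
      (mul_le_mul_of_nonneg_right h2 (by positivity)).trans h1
    exact no_small2 hC hK hκ hap h3 (hmin j hj)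
  have hsw : ∀ j ∈ G1, wj j ^ 2 ≤ 64 * Sj j := fun j hj =>
    rank j (mem_filter.1 hj).1 (hbd j hj)
  set G2 : Finset ℕ := {j ∈ G1 | (wj j : ℝ) ≤ 16 * K * a} with hG2
  have hG2sub : G2 ⊆ G1 := filter_subset _ _
  refine ⟨G2, hG2sub.trans (filter_subset _ _), ?_, ?_⟩
  · have h2 := few_large hK ha R G1 (filter_subset _ _) wj Sj hsw hS
    have h4 : (#G2 : ℝ) + #{j ∈ G1 | ¬ ((wj j : ℝ) ≤ 16 * K * a)} = #G1 := by
      exact_mod_cast card_filter_add_card_filter_not (s := G1)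
        (fun j => (wj j : ℝ) ≤ 16 * K * a)
    have h5 : 0 ≤ (#{j ∈ G1 | ¬ ((wj j : ℝ) ≤ 16 * K * a)} : ℝ) := by positivity
    set B : ℝ := (#{j ∈ G1 | ¬ ((wj j : ℝ) ≤ 16 * K * a)} : ℝ) with hB
    have h6 : 0 ≤ (K * B) * (K - 2) := mul_nonneg (mul_nonneg (by linarith) h5) (by linarith)
    have h7 : 8 * (K * B) ≤ lam ^ 2 := by
      calc 8 * (K * B) ≤ B * (4 * K ^ 2) := by linarith
        _ ≤ lam ^ 2 := h2
    have h8 : (#G1 : ℝ) = #G2 + B := h4.symm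
    rw [h8] at hG1card
    have h9 : 0 ≤ K * (#G2 : ℝ) := by positivity
    linarith
  · intro j hj
    have hj1 : j ∈ G1 := hG2sub hj
    have hjR := (mem_filter.1 hj1).1
    have hw : (wj j : ℝ) ≤ 16 * K * a := (mem_filter.1 hj).2
    have hb := hbd j hj1
    refine ⟨hb, hsw j hj1, hw, ?_, ?_, hmin j hj1⟩
    · have h1 := (dey j hjR).trans (arith_large hC (show Vj j ≤ wj j by omega))
      have h2 := hmin j hj1
      have h3 : a ^ (4 / 3 : ℝ)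
          ≤ (28 * C ^ 2 * K ^ 2 * κ ^ 3) * (wj j : ℝ) ^ (4 / 3 : ℝ) := by
        calc a ^ (4 / 3 : ℝ) ≤ 14 * C * K ^ 2 * κ ^ 3 * Ej j := h2
          _ ≤ 14 * C * K ^ 2 * κ ^ 3 * (2 * C * (wj j : ℝ) ^ (4 / 3 : ℝ)) := by gcongr
          _ = _ := by ring
      refine arith_inv ha.le (by positivity) ?_ h3
      have e3 : (1 : ℝ) ≤ κ ^ 3 := one_le_pow₀ hκ1
      have e5 : 1 ≤ C ^ 2 * K ^ 2 * κ ^ 3 := one_le_mul_of_one_le_of_one_le hCK e3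
      linarith
    · have h1 := arith_fwd ha.le (Nat.cast_nonneg (wj j)) (show 1 ≤ 16 * K by linarith) hw
      have h2 := hmin j hj1
      calc (wj j : ℝ) ^ (4 / 3 : ℝ) ≤ (16 * K) ^ 2 * a ^ (4 / 3 : ℝ) := h1
        _ ≤ (16 * K) ^ 2 * (14 * C * K ^ 2 * κ ^ 3 * Ej j) := by gcongr
        _ = _ := by ring

/-- comparison of all the constants with one power of `K`. -/
theorem arith_const2 {C C1 : ℝ} (_hC : 1 ≤ C) (_hC1 : 1 ≤ C1) : ∃ A : ℕ, ∀ K : ℝ, 2 ≤ K →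
    3584 * C ^ 2 * K ^ 4 * ((603 * C ^ 2 * K ^ 2 * C1) ^ 6) ^ 3 ≤ K ^ A := by
  obtain ⟨B, hB⟩ := pow_unbounded_of_one_lt (3584 * 603 ^ 18 * C ^ 38 * C1 ^ 18)
    (show (1 : ℝ) < 2 by norm_num)
  refine ⟨B + 40, fun K hK => ?_⟩
  have h1 : (2 : ℝ) ^ B ≤ K ^ B := pow_le_pow_left₀ (by norm_num) hK B
  have h2 : 0 < K ^ 40 := by positivity
  calc 3584 * C ^ 2 * K ^ 4 * ((603 * C ^ 2 * K ^ 2 * C1) ^ 6) ^ 3
      = (3584 * 603 ^ 18 * C ^ 38 * C1 ^ 18) * K ^ 40 := by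
        ring
    _ ≤ K ^ B * K ^ 40 := mul_le_mul_of_nonneg_right (hB.le.trans h1) h2.le
    _ = K ^ (B + 40) := (pow_add K B 40).symm

/-- the threshold `s0` -/
theorem arith_s0 {C C0 C1 K m a e : ℝ} {v0 : ℕ} (hC : 1 ≤ C) (hC0 : C0 ≤ C1) (hC1 : 1 ≤ C1)
    (hK : 2 ≤ K) (hm : m = 603 * C ^ 2 * K ^ 2 * C1) (ha : 2 * m ^ 15 ≤ a)
    (hv1 : 1 ≤ v0) (hv0 : (v0 : ℝ) ≤ a / (m ^ 6) ^ 3) :
    (64 * (v0 + 1) ≤ ⌊a / m ^ 15⌋₊) ∧ a ≤ 2 * m ^ 15 * (⌊a / m ^ 15⌋₊ : ℝ) ∧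
    (a ^ (4 / 3 : ℝ) ≤ 14 * C * K ^ 2 * (m ^ 6) ^ 3 * e →
      C0 * ((⌊a / m ^ 15⌋₊ : ℕ) : ℝ) ^ (4 / 3 : ℝ) ≤ e) := by
  have hCK : 1 ≤ C ^ 2 * K ^ 2 :=
    one_le_mul_of_one_le_of_one_le (one_le_pow₀ hC) (one_le_pow₀ (by linarith))
  have hCKC : 1 ≤ C ^ 2 * K ^ 2 * C1 := one_le_mul_of_one_le_of_one_le hCK hC1
  have hm1 : 603 ≤ m := by rw [hm]; nlinarith
  have hm0 : 0 < m := by linarith
  have hm15 : 0 < m ^ 15 := by positivity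
  have ha0 : 0 < a := lt_of_lt_of_le (by positivity) ha
  have h1 : 1 ≤ a / m ^ 15 := by
    rw [le_div_iff₀ hm15]; linarith
  have h2 := half_le_floor h1
  have h3 : ((⌊a / m ^ 15⌋₊ : ℕ) : ℝ) ≤ a / m ^ 15 := Nat.floor_le (by positivity)
  refine ⟨?_, ?_, ?_⟩
  · have h4 : (64 * (v0 + 1) : ℝ) ≤ (⌊a / m ^ 15⌋₊ : ℝ) := by
      have h5 : (1 : ℝ) ≤ v0 := by exact_mod_cast hv1
      have h6 : a / (m ^ 6) ^ 3 = (a / m ^ 15) / m ^ 3 := by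
        rw [div_div]; congr 1; ring
      have h7 : (256 : ℝ) ≤ m ^ 3 := by
        calc (256 : ℝ) ≤ 603 ^ 3 := by norm_num
          _ ≤ m ^ 3 := pow_le_pow_left₀ (by norm_num) hm1 3
      have h8 : (a / m ^ 15) / m ^ 3 ≤ (a / m ^ 15) / 256 := by
        gcongr
      rw [h6] at hv0
      linarith
    exact_mod_cast h4
  · calc a = 2 * m ^ 15 * (a / m ^ 15 / 2) := by field_simp
      _ ≤ 2 * m ^ 15 * (⌊a / m ^ 15⌋₊ : ℝ) := by gcongr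
  · intro he
    have h4 : ((⌊a / m ^ 15⌋₊ : ℕ) : ℝ) ^ (4 / 3 : ℝ) ≤ a ^ (4 / 3 : ℝ) / m ^ 20 := by
      refine (rp_mono (by positivity) h3 _ (by norm_num)).trans (le_of_eq ?_)
      rw [Real.div_rpow ha0.le (by positivity)]
      congr 1
      rw [← Real.rpow_natCast, ← Real.rpow_mul (by positivity), ← Real.rpow_natCast]
      norm_num
    have h5 : C1 * (14 * C * K ^ 2 * (m ^ 6) ^ 3 * e) ≤ m ^ 20 * e := by
      have he0 : 0 ≤ e := by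
        by_contra hc
        push Not at hc
        have : 14 * C * K ^ 2 * (m ^ 6) ^ 3 * e < 0 :=
          mul_neg_of_pos_of_neg (by positivity) hc
        have h9 : 0 < a ^ (4 / 3 : ℝ) := Real.rpow_pos_of_pos ha0 _
        linarith
      have h6 : C1 * (14 * C * K ^ 2) ≤ m ^ 2 := by
        have h7 : C1 * (14 * C * K ^ 2) ≤ m := by
          rw [hm]
          have : C ≤ C ^ 2 := by nlinarith
          calc C1 * (14 * C * K ^ 2) = 14 * C * (K ^ 2 * C1) := by ring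
            _ ≤ 603 * C ^ 2 * (K ^ 2 * C1) := by
              have : 14 * C ≤ 603 * C ^ 2 := by nlinarith
              exact mul_le_mul_of_nonneg_right this (by positivity)
            _ = _ := by ring
        nlinarith
      calc C1 * (14 * C * K ^ 2 * (m ^ 6) ^ 3 * e)
          = (C1 * (14 * C * K ^ 2)) * (m ^ 18 * e) := by ring
        _ ≤ m ^ 2 * (m ^ 18 * e) := by gcongr
        _ = m ^ 20 * e := by ring
    have h6 : C0 * ((⌊a / m ^ 15⌋₊ : ℕ) : ℝ) ^ (4 / 3 : ℝ) ≤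
        C1 * (a ^ (4 / 3 : ℝ) / m ^ 20) := by
      refine (mul_le_mul_of_nonneg_right hC0 (by positivity)).trans ?_
      gcongr
    refine h6.trans ?_
    rw [← mul_div_assoc, div_le_iff₀ (by positivity)]
    calc C1 * a ^ (4 / 3 : ℝ) ≤ C1 * (14 * C * K ^ 2 * (m ^ 6) ^ 3 * e) := by gcongr
      _ ≤ m ^ 20 * e := h5
      _ = e * m ^ 20 := by ring

/-- comparison of constants -/
theorem consts2 {C K κ m X : ℝ} (hC : 1 ≤ C) (hK : 2 ≤ K) (hm2 : 1 ≤ m) (hκ : κ = m ^ 6)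
    (hX : 3584 * C ^ 2 * K ^ 4 * κ ^ 3 ≤ X) :
    4 * K ≤ X ∧ 7 * C * K * κ ^ 3 ≤ X ∧ 16 * K ≤ X ∧ 28 * C ^ 2 * K ^ 2 * κ ^ 3 ≤ X ∧
    3584 * C * K ^ 4 * κ ^ 3 ≤ X ∧ 2 * κ ^ 3 ≤ X ∧ 2 * m ^ 15 ≤ X := by
  have hκ1 : 1 ≤ κ := by rw [hκ]; exact one_le_pow₀ hm2
  -- comparison of constants
  have hK3 : 1 ≤ κ ^ 3 := one_le_pow₀ hκ1
  have hC2 : 1 ≤ C ^ 2 := one_le_pow₀ hC
  have hCC : C ≤ C ^ 2 := by nlinarith
  have hK4 : 1 ≤ K ^ 4 := one_le_pow₀ (by linarith)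
  have hKK4 : K ≤ K ^ 4 := by
    calc K = K ^ 1 := (pow_one K).symm
      _ ≤ K ^ 4 := pow_le_pow_right₀ (by linarith) (by norm_num)
  have hKK2 : K ^ 2 ≤ K ^ 4 := pow_le_pow_right₀ (by linarith) (by norm_num)
  have hX1 : 4 * K ≤ X := by
    calc 4 * K = 4 * 1 * K * 1 := by ring
      _ ≤ 3584 * C ^ 2 * K ^ 4 * κ ^ 3 := by gcongr; norm_num
      _ ≤ X := hX
  have hX2 : 7 * C * K * κ ^ 3 ≤ X := by
    calc 7 * C * K * κ ^ 3 ≤ 3584 * C ^ 2 * K ^ 4 * κ ^ 3 := by gcongr; norm_num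
      _ ≤ X := hX
  have hX3 : 16 * K ≤ X := by
    calc 16 * K = 16 * 1 * K * 1 := by ring
      _ ≤ 3584 * C ^ 2 * K ^ 4 * κ ^ 3 := by gcongr; norm_num
      _ ≤ X := hX
  have hX4 : 28 * C ^ 2 * K ^ 2 * κ ^ 3 ≤ X := by
    calc 28 * C ^ 2 * K ^ 2 * κ ^ 3 ≤ 3584 * C ^ 2 * K ^ 4 * κ ^ 3 := by gcongr; norm_num
      _ ≤ X := hX
  have hX5 : 3584 * C * K ^ 4 * κ ^ 3 ≤ X := by
    calc 3584 * C * K ^ 4 * κ ^ 3 ≤ 3584 * C ^ 2 * K ^ 4 * κ ^ 3 := by gcongr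
      _ ≤ X := hX
  have hX6 : 2 * κ ^ 3 ≤ X := by
    calc 2 * κ ^ 3 = 2 * 1 * 1 * κ ^ 3 := by ring
      _ ≤ 3584 * C ^ 2 * K ^ 4 * κ ^ 3 := by gcongr; norm_num
      _ ≤ X := hX
  have hX7 : 2 * m ^ 15 ≤ X := by
    calc 2 * m ^ 15 = 2 * 1 * 1 * m ^ 15 := by ring
      _ ≤ 3584 * C ^ 2 * K ^ 4 * m ^ 18 := by
          gcongr
          · norm_num
          · norm_num
      _ = 3584 * C ^ 2 * K ^ 4 * κ ^ 3 := by rw [hκ]; ring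
      _ ≤ X := hX
  exact ⟨hX1, hX2, hX3, hX4, hX5, hX6, hX7⟩

/-- **WINDOWS** with the threshold `s0`. -/
theorem windows2 (hDey : StDey) (hRank : StRank) (C0 : ℝ) : ∃ A : ℕ, ∀ (K lam : ℝ) (P : Finset Pt) (k : ℕ)
    (Q : Finset Pt), Good P → Q ⊆ P → 2 ≤ K → 1 ≤ lam → K ^ A ≤ #Q / lam →
    (#(EdBd P k Q Set.univ) : ℝ) ≤ K * lam ^ 2 * (#Q / lam) →
    lam ^ 2 * (#Q / lam) ^ (4 / 3 : ℝ) ≤ K * #(EdIn P k Q Set.univ) →
    ∃ (W : Finset ℕ) (I : ℕ → Set ℝ) (T : ℕ → Finset Pt) (s0 : ℕ),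
      ((#Q : ℝ) ≤ K ^ A * lam * s0 ∧ (∀ w ∈ W, 64 * (#(EdBd P k Q (I w)) + 1) ≤ s0) ∧
        (∀ w ∈ W, C0 * (s0 : ℝ) ^ (4 / 3 : ℝ) ≤ #(EdIn P k Q (I w)))) ∧
      (∀ w ∈ W, (I w).OrdConnected) ∧
      (∀ w ∈ W, ∀ w' ∈ W, w ≠ w' → Disjoint (I w) (I w')) ∧
      (#W : ℝ) ≤ K ^ A * lam ^ 2 ∧
      lam ^ 2 ≤ K ^ A * #W ∧
      (∀ w ∈ W, T w ⊆ Q) ∧
      (∀ w ∈ W, T w = Tch P k Q (I w)) ∧
      (∀ w ∈ W, 8 * (#(EdBd P k Q (I w)) + 1) ≤ #(T w)) ∧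
      (∀ w ∈ W, lam * #(T w) ≤ K ^ A * #Q) ∧
      (∀ w ∈ W, (#Q : ℝ) ≤ K ^ A * lam * #(T w)) ∧
      (∀ w ∈ W, (#(T w) : ℝ) ^ (4 / 3 : ℝ) ≤ K ^ A * #(EdIn P k Q (I w))) ∧
      (∀ w ∈ W, (#(T w)) ^ 2 ≤ 64 * #(Sw (T w) (I w))) := by
  classical
  obtain ⟨C₀, hC₀, dey₀⟩ := hDey
  set C : ℝ := max C₀ 1 with hCdef
  have hC : 1 ≤ C := le_max_right _ _
  have dey : ∀ (P : Finset Pt) (k : ℕ) (Q : Finset Pt) (I : Set ℝ), Good P → Q ⊆ P →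
      I.OrdConnected → (#(EdIn P k Q I) : ℝ) ≤ C *
        ((#(Tch P k Q I) : ℝ) * (#(Tch P k Q I) + #(EdBd P k Q I))) ^ (2 / 3 : ℝ) :=
    fun P k Q I h1 h2 h3 => (dey₀ P k Q I h1 h2 h3).trans
      (mul_le_mul_of_nonneg_right (le_max_left _ _) (by positivity))
  clear_value C
  set C1 : ℝ := max C0 1 with hC1def
  have hC1 : 1 ≤ C1 := le_max_right _ _
  have hC01 : C0 ≤ C1 := le_max_left _ _
  clear_value C1
  obtain ⟨A, hA⟩ := arith_const2 hC hC1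
  refine ⟨A, fun K lam P k Q hP hQ hK hl hKA hV hE => ?_⟩
  have hX := hA K hK
  set m : ℝ := 603 * C ^ 2 * K ^ 2 * C1 with hm
  have hCK1 : 1 ≤ C ^ 2 * K ^ 2 :=
    one_le_mul_of_one_le_of_one_le (one_le_pow₀ hC) (one_le_pow₀ (by linarith))
  have hm1 : 603 * C ^ 2 * K ^ 2 ≤ m := by
    rw [hm]
    have : 0 ≤ 603 * C ^ 2 * K ^ 2 := by positivity
    nlinarith
  have hm2 : 1 ≤ m := by linarith
  set κ : ℝ := m ^ 6 with hκ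
  have hκm : 603 * C ^ 2 * K ^ 2 ≤ κ := hm1.trans (by
    calc m = m ^ 1 := (pow_one m).symm
      _ ≤ m ^ 6 := pow_le_pow_right₀ hm2 (by norm_num))
  have hκ1 : 1 ≤ κ := one_le_pow₀ hm2
  have hκ0 : 0 < κ := by linarith
  set X : ℝ := K ^ A with hXdef
  set a : ℝ := #Q / lam with ha
  have hN : lam * a = #Q := by rw [ha]; field_simp
  obtain ⟨hX1, hX2, hX3, hX4, hX5, hX6, hX7⟩ := consts2 hC hK hm2 hκ hX
  have hK3 : 1 ≤ κ ^ 3 := one_le_pow₀ hκ1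
  have haX : X ≤ a := hKA
  have ha0 : 0 < a := by linarith
  have ha1 : 1 ≤ a := by linarith
  have hap1 : 1 ≤ a ^ (4 / 3 : ℝ) := Real.one_le_rpow ha1 (by norm_num)
  -- the parameters
  set v0 : ℕ := ⌊a / κ ^ 3⌋₊ with hv0
  set e0 : ℕ := ⌊a ^ (4 / 3 : ℝ)⌋₊ with he0
  have hak : 1 ≤ a / κ ^ 3 := by
    rw [le_div_iff₀ (by positivity)]
    linarith
  have hv1 : 1 ≤ v0 := Nat.floor_pos.2 hak
  have he1 : 1 ≤ e0 := Nat.floor_pos.2 hap1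
  have hv2 : (v0 : ℝ) ≤ a / κ ^ 3 := Nat.floor_le (by positivity)
  have he2 : (e0 : ℝ) ≤ a ^ (4 / 3 : ℝ) := Nat.floor_le (by positivity)
  have hv3 : a / κ ^ 3 / 2 ≤ (v0 : ℝ) := half_le_floor hak
  have he3 : a ^ (4 / 3 : ℝ) / 2 ≤ (e0 : ℝ) := half_le_floor hap1
  have hv4 : (0 : ℝ) < v0 := by exact_mod_cast hv1
  have he4 : (0 : ℝ) < e0 := by exact_mod_cast he1
  set S1 := EdBd P k Q Set.univ with hS1
  set S2 := EdIn P k Q Set.univ with hS2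
  have hup : (#S2 : ℝ) ≤ 2 * C * K * lam ^ 2 * a ^ (4 / 3 : ℝ) := by
    refine (dey P k Q Set.univ hP hQ Set.ordConnected_univ).trans ?_
    refine arith_E hC hK hl ha0.le (by positivity) ?_ (by positivity) hV
    rw [hN]
    exact_mod_cast card_le_card Tch_sub
  set r : ℕ := ⌊(#S1 : ℝ) / v0 + (#S2 : ℝ) / e0⌋₊ + 1 with hr
  have hrF : ∀ m, ⌊Fw S1 S2 v0 e0 m⌋₊ < r := fun m =>
    Nat.lt_succ_of_le (Nat.floor_le_floor (Fw_le S1 S2 v0 e0 m))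
  have hlam2 : 1 ≤ lam ^ 2 := one_le_pow₀ hl
  have hrcard : (r : ℝ) ≤ 7 * C * K * κ ^ 3 * lam ^ 2 := by
    have h1 : (#S1 : ℝ) / v0 ≤ 2 * K * κ ^ 3 * lam ^ 2 := by
      rw [div_le_iff₀ hv4]
      calc (#S1 : ℝ) ≤ K * lam ^ 2 * a := hV
        _ = 2 * K * κ ^ 3 * lam ^ 2 * (a / κ ^ 3 / 2) := by field_simp
        _ ≤ 2 * K * κ ^ 3 * lam ^ 2 * v0 := by gcongr
    have h2 : (#S2 : ℝ) / e0 ≤ 4 * C * K * lam ^ 2 := by
      rw [div_le_iff₀ he4]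
      calc (#S2 : ℝ) ≤ 2 * C * K * lam ^ 2 * a ^ (4 / 3 : ℝ) := hup
        _ = 4 * C * K * lam ^ 2 * (a ^ (4 / 3 : ℝ) / 2) := by ring
        _ ≤ 4 * C * K * lam ^ 2 * e0 := by gcongr
    have h3 : (r : ℝ) ≤ (#S1 : ℝ) / v0 + (#S2 : ℝ) / e0 + 1 := by
      rw [hr]
      push_cast
      have := Nat.floor_le (show 0 ≤ (#S1 : ℝ) / v0 + (#S2 : ℝ) / e0 by positivity)
      linarith
    have h4 : 2 * K * κ ^ 3 * lam ^ 2 ≤ 2 * (C * K * κ ^ 3 * lam ^ 2) := by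
      have : 1 * (K * κ ^ 3 * lam ^ 2) ≤ C * (K * κ ^ 3 * lam ^ 2) := by gcongr
      linarith
    have h5 : 4 * C * K * lam ^ 2 ≤ 4 * (C * K * κ ^ 3 * lam ^ 2) := by
      have : C * K * 1 * lam ^ 2 ≤ C * K * κ ^ 3 * lam ^ 2 := by gcongr
      linarith
    have h6 : 1 ≤ C * K * κ ^ 3 * lam ^ 2 :=
      one_le_mul_of_one_le_of_one_le (one_le_mul_of_one_le_of_one_le
        (one_le_mul_of_one_le_of_one_le hC (by linarith)) hK3) hlam2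
    linarith
  obtain ⟨G, hGR, hG1, hG2⟩ := pick_windows2 (C := C) (K := K) (lam := lam) (a := a) hC hK hl ha0
    hκm (range r) (fun j => #(EdBd P k Q (Iw S1 S2 v0 e0 j)))
    (fun j => #(EdIn P k Q (Iw S1 S2 v0 e0 j)))
    (fun j => #(Tch P k Q (Iw S1 S2 v0 e0 j)))
    (fun j => #(Sw (Tch P k Q (Iw S1 S2 v0 e0 j)) (Iw S1 S2 v0 e0 j))) v0 hv1 hv2
    (fun j _ => card_Iw1 hP Q v0 e0 hv1 j)
    (fun j _ => le_trans (by exact_mod_cast card_Iw2 hP Q v0 e0 he1 j) he2)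
    (fun j _ => dey P k Q _ hP hQ (Iw_conn _ _ _ _ j))
    (fun j _ h => hRank P k Q _ hP hQ (Iw_conn _ _ _ _ j) h)
    (by rw [hN]; exact_mod_cast sum_Sw Q S1 S2 v0 e0 r hrF)
    (by rw [card_range]; exact hrcard)
    (by rw [sum_Iw Q S1 S2 v0 e0 r hrF]; exact hE)
  have hs := fun e : ℝ => arith_s0 (e := e) hC hC01 hC1 hK hm (hX7.trans haX) hv1 hv2
  refine ⟨G, Iw S1 S2 v0 e0, fun j => Tch P k Q (Iw S1 S2 v0 e0 j), ⌊a / m ^ 15⌋₊,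
    ⟨?_, fun j hj => ?_, fun j hj => (hs _).2.2 (hG2 j hj).2.2.2.2.2⟩,
    fun j _ => Iw_conn _ _ _ _ j, fun i _ j _ hij => Iw_disj _ _ _ _ hij, ?_, ?_,
    fun j _ => Tch_sub, fun j _ => rfl, fun j hj => (hG2 j hj).1, ?_, ?_, ?_,
    fun j hj => (hG2 j hj).2.1⟩
  · have h1 := (hs 0).2.1
    calc (#Q : ℝ) = lam * a := hN.symm
      _ ≤ lam * (2 * m ^ 15 * (⌊a / m ^ 15⌋₊ : ℝ)) := by gcongr
      _ ≤ lam * (X * (⌊a / m ^ 15⌋₊ : ℝ)) := by gcongr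
      _ = X * lam * (⌊a / m ^ 15⌋₊ : ℝ) := by ring
  · exact le_trans (Nat.mul_le_mul_left _ (Nat.add_le_add_right (card_Iw1 hP Q v0 e0 hv1 j) 1))
      (hs 0).1
  · have h1 : (#G : ℝ) ≤ r := by
      have := card_le_card hGR
      rw [card_range] at this
      exact_mod_cast this
    calc (#G : ℝ) ≤ 7 * C * K * κ ^ 3 * lam ^ 2 := h1.trans hrcard
      _ ≤ X * lam ^ 2 := by gcongr
  · exact hG1.trans (by gcongr)
  · intro j hj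
    have h1 := (hG2 j hj).2.2.1
    calc lam * (#(Tch P k Q (Iw S1 S2 v0 e0 j)) : ℝ) ≤ lam * (16 * K * a) := by gcongr
      _ = 16 * K * (lam * a) := by ring
      _ ≤ X * (lam * a) := by gcongr
      _ = X * #Q := by rw [hN]
  · intro j hj
    have h1 := (hG2 j hj).2.2.2.1
    calc (#Q : ℝ) = lam * a := hN.symm
      _ ≤ lam * (28 * C ^ 2 * K ^ 2 * κ ^ 3 * #(Tch P k Q (Iw S1 S2 v0 e0 j))) := by gcongr
      _ ≤ lam * (X * #(Tch P k Q (Iw S1 S2 v0 e0 j))) := by gcongr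
      _ = _ := by ring
  · intro j hj
    exact ((hG2 j hj).2.2.2.2.1).trans (by gcongr)


/-! ### the structure with the threshold -/

/-- `Plane` together with a threshold `s0` for heavy points -/
structure Plane2 (C0 : ℝ) (s0 : ℕ) (lam K : ℝ) (P : Finset Pt) (k : ℕ) (Q : Finset Pt) {ι : Type}
    (W : Finset ι) (I : ι → Set ℝ) (T : ι → Finset Pt) : Prop
    extends Plane lam K P k Q W I T where
  s0Q : (#Q : ℝ) ≤ K * lam * s0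
  s0bd : ∀ w ∈ W, 64 * (#(EdBd P k Q (I w)) + 1) ≤ s0
  s0ed : ∀ w ∈ W, C0 * (s0 : ℝ) ^ (4 / 3 : ℝ) ≤ #(EdIn P k Q (I w))

/-- **OUT2**: `OUT1` with the threshold `s0`, for every prescribed constant `C0`. -/
def StOut2 : Prop :=
  ∀ C0 : ℝ, ∃ C : ℝ, 0 < C ∧ ∀ ε : ℝ, 0 < ε → ε < 1 / C → ∃ n₀ : ℕ, ∀ (P : Finset Pt) (k : ℕ),
    Good P → n₀ ≤ #P → (#P : ℝ) ^ (4 / 3 - ε) ≤ #(Ed P k) →
    ∀ lam : ℝ, (#P : ℝ) ^ (C * ε) ≤ lam → lam ≤ (#P : ℝ) ^ (1 / 4 - C * ε) →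
    ∃ (Q : Finset Pt) (W : Finset ℕ) (I : ℕ → Set ℝ) (T : ℕ → Finset Pt) (s0 : ℕ),
      Plane2 C0 s0 lam ((#P : ℝ) ^ (C * ε)) P k Q W I T

theorem stOut2_of (hPick : StPick) (hDey : StDey) (hRank : StRank) : StOut2 := by
  classical
  intro C0
  obtain ⟨C1, hC1, pick⟩ := hPick
  obtain ⟨A, win⟩ := windows2 hDey hRank C0
  set C : ℝ := (A + 1) * C1 with hC
  have hA0 : (0 : ℝ) ≤ A := Nat.cast_nonneg A
  have hCpos : 0 < C := by positivity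
  have hCC1 : C1 ≤ C := by rw [hC]; nlinarith
  have hCA : A * C1 ≤ C := by rw [hC]; nlinarith
  refine ⟨C, hCpos, fun ε hε hεC => ?_⟩
  have hε1 : ε < 1 / C1 := hεC.trans_le (one_div_le_one_div_of_le hC1 hCC1)
  obtain ⟨n₁, hn₁⟩ := pick ε hε hε1
  obtain ⟨n₂, hn₂1, hn₂⟩ := exists_two_le (mul_pos hC1 hε)
  refine ⟨max n₁ n₂, fun P k hP hn hEd lam hl1 hl2 => ?_⟩
  have hn1 : n₁ ≤ #P := (le_max_left _ _).trans hn
  have hn2 : n₂ ≤ #P := (le_max_right _ _).trans hn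
  have hn1' : 1 ≤ #P := hn₂1.trans hn2
  set n : ℝ := (#P : ℝ) with hndef
  have hn1R : 1 ≤ n := by rw [hndef]; exact_mod_cast hn1'
  have hn0 : 0 < n := by linarith
  have hmono : ∀ {x y : ℝ}, x ≤ y → n ^ x ≤ n ^ y := fun h =>
    Real.rpow_le_rpow_of_exponent_le hn1R h
  have hCε : C1 * ε ≤ C * ε := mul_le_mul_of_nonneg_right hCC1 hε.le
  have hKK : n ^ (C1 * ε) ≤ n ^ (C * ε) := hmono hCε
  have hKA : (n ^ (C1 * ε)) ^ A ≤ n ^ (C * ε) := by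
    rw [← Real.rpow_natCast, ← Real.rpow_mul hn0.le]
    refine hmono ?_
    have := mul_le_mul_of_nonneg_right hCA hε.le
    linarith
  have hK2 : 2 ≤ n ^ (C1 * ε) := hn₂ _ hn2
  have hlamK : n ^ (C1 * ε) ≤ lam := hKK.trans hl1
  have hlam1 : 1 ≤ lam := by linarith
  have hlam0 : 0 < lam := by linarith
  obtain ⟨Q, hQ, q1, q2, q3, q4⟩ := hn₁ P k hP hn1 hEd lam hlamK
    (hl2.trans (hmono (by linarith)))
  have hbig : (n ^ (C1 * ε)) ^ A ≤ #Q / lam := by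
    rw [le_div_iff₀ hlam0]
    -- `K^A * lam * (K * lam^2) <= n <= K lam^2 #Q`
    have h1 : (n ^ (C1 * ε)) ^ A * lam * (n ^ (C1 * ε) * lam ^ 2)
        ≤ #Q * (n ^ (C1 * ε) * lam ^ 2) := by
      calc (n ^ (C1 * ε)) ^ A * lam * (n ^ (C1 * ε) * lam ^ 2)
          = (n ^ (C1 * ε)) ^ (A + 1) * lam ^ 3 := by ring
        _ ≤ n ^ (C * ε) * (n ^ (1 / 4 - C * ε)) ^ 3 := by
            gcongr
            rw [← Real.rpow_natCast, ← Real.rpow_mul hn0.le]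
            refine hmono ?_
            rw [hC]
            push_cast
            linarith
        _ = n ^ (3 / 4 - 2 * (C * ε)) := by
            rw [← Real.rpow_natCast (n ^ (1 / 4 - C * ε)), ← Real.rpow_mul hn0.le,
              ← Real.rpow_add hn0]
            congr 1
            push_cast
            ring
        _ ≤ n ^ (1 : ℝ) := hmono (by nlinarith [mul_pos hCpos hε])
        _ = n := Real.rpow_one n
        _ ≤ n ^ (C1 * ε) * lam ^ 2 * #Q := q2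
        _ = #Q * (n ^ (C1 * ε) * lam ^ 2) := by ring
    exact le_of_mul_le_mul_right h1 (by positivity)
  obtain ⟨W, I, T, s0, ⟨z1, z2, z3⟩, w1, w2, w3, w4, w5, w6, w7, w8, w9, w10, w11⟩ :=
    win (n ^ (C1 * ε)) lam P k Q hP hQ hK2 hlam1 hbig
      (q3.trans_eq (by rw [hndef]; field_simp)) q4
  refine ⟨Q, W, I, T, s0, ⟨⟨hQ, w1, w2, ?_, ?_, ?_, ?_, w5, w6, w7, ?_, ?_, ?_, w11⟩, ?_, z2, z3⟩⟩
  · exact q1.trans (by gcongr)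
  · exact q2.trans (by gcongr)
  · exact w3.trans (by gcongr)
  · exact w4.trans (by gcongr)
  · exact fun w hw => (w8 w hw).trans (by gcongr)
  · exact fun w hw => (w9 w hw).trans (by gcongr)
  · exact fun w hw => (w10 w hw).trans (by gcongr)
  · exact z1.trans (by gcongr)

end Vale.Agent.P065.UB.H374
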